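import Vale.Agent.P146.Lower.Res.Variance

/-! The fluctuations of the SK free energy are polynomially large, in law and in variance, at every `β > 1`. -/

open MeasureTheory ProbabilityTheory Filter

namespace Vale.Agent.Results.P146.PolynomialFluctuations

/-- There is a universal `δ > 0` such that, for every `β > 1`, the log partition function of the
Sherrington-Kirkpatrick model gives probability `O(n^(-δ))` to each interval of radius `n^δ`, uniformly in its
centre, and has variance at least `n^(2δ)/2` for all large `n`. -/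
theorem result : ∃ δ : ℝ, 0 < δ ∧ ∀ β : ℝ, 1 < β →
    (∃ C : ℝ, 0 < C ∧ ∀ n : ℕ, 1 ≤ n → ∀ c : ℝ,
      (Measure.pi fun _ : {p : Fin n × Fin n // p.1 < p.2} => gaussianReal 0 1).real
        {g | |Real.log (∑ x : Fin n → Bool, Real.exp (β * ((1 / Real.sqrt n) *
          ∑ e : {p : Fin n × Fin n // p.1 < p.2},
            g e * ((if x e.1.1 then (1 : ℝ) else -1) * (if x e.1.2 then (1 : ℝ) else -1))))) - c| ≤
          (n : ℝ) ^ δ} ≤ C / (n : ℝ) ^ δ) ∧
    ∀ᶠ n : ℕ in atTop, (n : ℝ) ^ (2 * δ) / 2 ≤
      Var[fun g : {p : Fin n × Fin n // p.1 < p.2} → ℝ =>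
        Real.log (∑ x : Fin n → Bool, Real.exp (β * ((1 / Real.sqrt n) *
          ∑ e, g e * ((if x e.1.1 then (1 : ℝ) else -1) * (if x e.1.2 then (1 : ℝ) else -1)))));
        Measure.pi fun _ => gaussianReal 0 1] :=
  Vale.Agent.P146.Lower.Res.power_fluctuations

end Vale.Agent.Results.P146.PolynomialFluctuations
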