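import Vale.Agent.P146.Final

/-! Polynomial improvement of the variance bound for the SK free energy, at every temperature. -/

open MeasureTheory ProbabilityTheory

namespace Vale.Agent.Results.P146.PolynomialVarianceBound

/-- There is `δ > 0` such that, for every `β`, `Var F_n(β) = O(n^{1-δ})`, where `F_n(β)` is the log
partition function of the Sherrington-Kirkpatrick model without external field. -/
theorem result : ∃ δ : ℝ, 0 < δ ∧ ∀ β : ℝ, ∃ C : ℝ, 0 < C ∧ ∀ n : ℕ, 1 ≤ n →
    Var[fun g : {p : Fin n × Fin n // p.1 < p.2} → ℝ =>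
        Real.log (∑ x : Fin n → Bool, Real.exp (β * ((1 / Real.sqrt n) *
          ∑ e, g e * ((if x e.1.1 then (1 : ℝ) else -1) * (if x e.1.2 then (1 : ℝ) else -1)))));
      Measure.pi fun _ => gaussianReal 0 1] ≤ C * (n : ℝ) ^ (1 - δ) :=
  Vale.Agent.P146.variance_le_rpow

end Vale.Agent.Results.P146.PolynomialVarianceBound
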